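import Vale.Agent.P054.T3.H461.MC2
import Vale.Agent.P054.T3.H533.CountV2

set_option autoImplicit false
set_option linter.unusedSectionVars false
set_option linter.unusedVariables false

/-!
# P054 / T3: `main2`, all sections together for `n = 2`, in natural numbers, thresholds per vertex
-/

namespace Vale.Agent.P054.T3.H373

open Finset MvPolynomial Module
open Vale.Agent.P054.T2 Vale.Agent.P054.T2.SecC
open Vale.Agent.P054.T2.H163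
open Vale.Agent.P054.T2.H307 (Ed xF xL NN)
open Vale.Agent.P054.T2.H580 (kap)
open Vale.Agent.P054.T2.H686 (Qf Crd dists Ez Gm E Ez_ne Ez_Qf zt)
open Vale.Agent.P054.T2.H455 (Sep)
open Vale.Agent.P054.T2.H269 (Cs)
open Vale.Agent.P054.T3.H517 (VBd MV lenV aV CVV exists_vsetsT)
open Vale.Agent.P054.T3.H807 (pdeg pdeg_gain pdeg_nogain leafB)
open Vale.Agent.P054.T3.H182 (F5 BData BOut CB qB)
open Vale.Agent.P054.T3.H533 (MuK card_deg0K_famU card_deg0K_famU' aBC lenBC lossBC exists_BOut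
  termF prod_eq_pdeg NoRichL VSubH)
open Vale.Agent.P054.T3.H533.B (KB ML mS lenS)
open Vale.Agent.P054.T3.H637 (FlatQ dt)
open Vale.Agent.P054.T3.H854 (IsoBL)
open Vale.Agent.P054.T3.H461

/-- **ALL SECTIONS, `n = 2`**, in natural numbers -/
theorem main2 (hVS : VSubH 2) {L : ℕ} (hL : 48 * (4 * 2 + 1) ≤ L) (Λ₀ Λ₁ : ℕ) (hΛ₁ : 1 ≤ Λ₁) :
    ∃ β₀ : ℕ, ∀ β, β₀ ≤ β → ∀ τ ell t : ℕ, (β ^ L) ^ ell ≤ τ → τ ≤ (β ^ L) ^ (ell + 1) →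
      τ ≤ Λ₁ * t → 1 ≤ t → ∀ (P : Finset (E 2)) (B : E 2 ≃ₗᵢ[ℝ] E 2) (k : ℕ), Gm P B →
      ∀ (Sg₁ Sg₂ : Finset (ZZ 2)) (E₀ : Finset (Ed 2 ℝ)), E₀.Nonempty → E₀ ⊆ Ez P B k →
      Sep (fun s : ZZ 2 => pt s) (4 * t) Sg₁ → Sep (fun s : ZZ 2 => pt s) (4 * t) Sg₂ →
      (∀ e ∈ E₀, e.1 ∈ Sg₁) → (∀ e ∈ E₀, e.2 ∈ Sg₂) →
      Sg₁.card * Sg₂.card ≤ Λ₀ * τ * E₀.card →
      ∀ (κ Gf : ℕ) (m : ZZ 2 → ℕ), MuK E₀ κ → MuK (swp E₀) κ → FlatQ 2 P Gf → P.card ≤ Gf →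
      (∀ e ∈ E₀, NoRichL B E₀ m (dt B) e) →
      ∃ h ≤ ell, ∃ E₂ ⊆ E₀, E₂.Nonempty ∧
        E₀.card ≤ β ^ (CC0 2 * h + CC2 2 L) * E₂.card ∧
        ∃ X₁ X₂ X₃ : ℕ, E₂.card ≤ X₁ + X₂ + X₃ ∧
        SideV 2 (β ^ (CC0 2 * h + CC2 2 L)) ((β ^ L) ^ (h / 6)) t τ Sg₁.card P.card Gf κ Sg₁ m X₁ ∧
        SideV 2 (β ^ (CC0 2 * h + CC2 2 L)) ((β ^ L) ^ (h / 6)) t τ Sg₂.card P.card Gf κ Sg₂ m X₂ ∧
        ThirdN 2 (β ^ (CC0 2 * h + CC2 2 L)) ((β ^ L) ^ (h / 6)) t τ X₃ := by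
  classical
  have hlen1 : 1 ≤ lenBC 2 L (2 * MV 2) := by unfold lenBC lenS; omega
  obtain ⟨β₁, hcore⟩ := exists_core 2 (by omega) hL (lenBC 2 L (2 * MV 2)) hlen1 Λ₀ Λ₁ hΛ₁
  obtain ⟨β₂, hBO⟩ := exists_BOut 2 L (2 * MV 2) (by omega) (by omega)
  refine ⟨max (max β₁ β₂) (2 + (2 + 1) ^ 2 + Cs 2 + H819.Cx 2 + 9 ^ 2 + 4 * 25 ^ 2),
    fun β hβ => ?_⟩
  have hβ₁ : β₁ ≤ β := (le_max_left _ _).trans ((le_max_left _ _).trans hβ)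
  have hβ₂ : β₂ ≤ β := (le_max_right _ _).trans ((le_max_left _ _).trans hβ)
  have hβc : 2 + (2 + 1) ^ 2 + Cs 2 + H819.Cx 2 + 9 ^ 2 + 4 * 25 ^ 2 ≤ β :=
    (le_max_right _ _).trans hβ
  have hall : ∀ a1 a2 a3 a4 a5 a6 : ℕ, a1 + a2 + a3 + a4 + a5 + a6 ≤ β →
      a1 ≤ β ∧ a2 ≤ β ∧ a3 ≤ β ∧ a4 ≤ β ∧ a5 ≤ β ∧ a6 ≤ β := by
    intros; omega
  obtain ⟨q1, q2, q3, q4, q5, q6⟩ := hall _ _ _ _ _ _ hβc
  clear hβc
  have hβ1 : 1 ≤ β := by omega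
  have hL0 : L ≠ 0 := by omega
  have hbβ : β ≤ β ^ L := Nat.le_self_pow hL0 _
  have hb1 : 1 ≤ β ^ L := Nat.one_le_pow _ _ hβ1
  intro τ ell t hell hell' hτ ht1 P B k hB Sg₁ Sg₂ E₀ hE₀ hE₀z hs1 hs2 hS1 hS2 hΛ κ Gf m
    hK1 hK2 hFl hPG hNR
  obtain ⟨h, hh, E₁, hE₁, hE₁n, hE₁c, K₁, vF, v1, v2, hF, h1, h2, k₀, hk₀, hconst, htight, hvF,
    hv1, hv2, hW, hgF, hg1, hg2⟩ := hcore β hβ₁ τ ell t hell hell' hτ ht1 P B k hB Sg₁ Sg₂ E₀ hE₀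
    hE₀z hs1 hs2 hS1 hS2 hΛ
  set Θ₁ := β ^ (CC0 2 * h + CC1 2 L (lenBC 2 L (2 * MV 2))) with hΘ₁
  set Θ₂ := β ^ (CC0 2 * h + CC2 2 L) with hΘ₂
  have hΘ12 : Θ₁ ≤ Θ₂ := Nat.pow_le_pow_right hβ1 (by unfold CC2; omega)
  have hΘ1pos : 1 ≤ Θ₁ := Nat.one_le_pow _ _ hβ1
  have hβΘ : β ≤ Θ₂ := by
    calc β = β ^ 1 := (pow_one _).symm
      _ ≤ Θ₂ := Nat.pow_le_pow_right hβ1 (by unfold CC2; omega)
  have hCbΘ : 2 * (β ^ L) ^ aBC 2 L (2 * MV 2) * Θ₁ ≤ Θ₂ := by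
    calc 2 * (β ^ L) ^ aBC 2 L (2 * MV 2) * Θ₁
        ≤ β ^ 1 * β ^ (L * aBC 2 L (2 * MV 2)) * Θ₁ := by
          refine Nat.mul_le_mul_right _ (Nat.mul_le_mul (by rw [pow_one]; exact q1) ?_)
          rw [← pow_mul]
      _ = β ^ (1 + L * aBC 2 L (2 * MV 2) +
          (CC0 2 * h + CC1 2 L (lenBC 2 L (2 * MV 2)))) := by rw [hΘ₁, ← pow_add, ← pow_add]
      _ ≤ Θ₂ := Nat.pow_le_pow_right hβ1 (by unfold CC2; omega)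
  have hI1 : E₁.image Prod.fst ⊆ Sg₁ := fun s hs => by
    obtain ⟨e, he, rfl⟩ := Finset.mem_image.1 hs
    exact hS1 e (hE₁ he)
  have hI2 : E₁.image Prod.snd ⊆ Sg₂ := fun s hs => by
    obtain ⟨e, he, rfl⟩ := Finset.mem_image.1 hs
    exact hS2 e (hE₁ he)
  have hz1 : ∀ a : ℕ, a ≤ a + 0 + 0 := by intros; omega
  have hz2 : ∀ a : ℕ, a ≤ 0 + a + 0 := by intros; omega
  by_cases hd1 : v1 k₀ = 2
  · -- `σ₁ = 0`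
    have hc := card_deg0K_famU (hK1.subset hE₁) (E₁.image Prod.fst)
      (fun e he => Finset.mem_image_of_mem _ he) hb1 h1 (by omega : k₀ ≤ K₁) hd1
    refine ⟨h, hh, E₁, hE₁, hE₁n, hE₁c.trans (Nat.mul_le_mul_right _ hΘ12),
      (E₁.image Prod.fst).card * (κ * ((2 + 1) ^ 2 * pdeg (β ^ L) k₀ v1)), 0, 0, ?_, ?_,
      sideV_zero _ _ _ _ _ _ _ _ _ _ _, Or.inl rfl⟩
    · exact hc.trans (hz1 _)
    · exact sideV_deg0 hI1 (by omega) hd1 hg1 rfl (q2.trans hβΘ) hΘ12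
  by_cases hd2 : v2 k₀ = 2
  · -- `σ₂ = 0`
    have hsw : swp E₁ ⊆ swp E₀ := Finset.map_subset_map.2 hE₁
    have hc := card_deg0K_famU' (hK2.subset hsw) (E₁.image Prod.snd)
      (fun e he => Finset.mem_image_of_mem _ he) hb1 h2 (by omega : k₀ ≤ K₁) hd2
    refine ⟨h, hh, E₁, hE₁, hE₁n, hE₁c.trans (Nat.mul_le_mul_right _ hΘ12), 0,
      (E₁.image Prod.snd).card * (κ * ((2 + 1) ^ 2 * pdeg (β ^ L) k₀ v2)), 0, ?_,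
      sideV_zero _ _ _ _ _ _ _ _ _ _ _, ?_, Or.inl rfl⟩
    · exact hc.trans (hz2 _)
    · exact sideV_deg0 hI2 (by omega) hd2 hg2 rfl (q2.trans hβΘ) hΘ12
  -- the main case
  obtain ⟨E₂, hE₂, hE₂n, hE₂c, D, hD, O, -⟩ := hBO β hβ₂ K₁ k₀ E₁ vF v1 v2 hE₁n hF h1 h2
    (by omega) hconst htight (by omega) (by omega) P B k hB (hE₁.trans hE₀z)
  have hSc1' : (E₂.image Prod.fst).card ≤ (E₁.image Prod.fst).card :=
    Finset.card_le_card (Finset.image_subset_image hE₂)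
  have hSc2' : (E₂.image Prod.snd).card ≤ (E₁.image Prod.snd).card :=
    Finset.card_le_card (Finset.image_subset_image hE₂)
  have hJ1 : E₂.image Prod.fst ⊆ Sg₁ := (Finset.image_subset_image hE₂).trans hI1
  have hJ2 : E₂.image Prod.snd ⊆ Sg₂ := (Finset.image_subset_image hE₂).trans hI2
  have hcount := H533.BOut.count2V O rfl hVS (fun i _ => Nat.one_le_pow _ _ hb1)
    (fun i _ => Nat.one_le_pow _ _ hb1) (fun i _ => Nat.one_le_pow _ _ hb1) ht1 hB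
    ((hE₂.trans hE₁).trans hE₀z) hFl hPG (hE₂.trans hE₁) m ∅
    (fun e he _ => hNR e (hE₁ (hE₂ he)))
    (Sg₁ := E₂.image Prod.fst) (Sg₂ := E₂.image Prod.snd)
    (hs1.subset hJ1) (hs2.subset hJ2)
    (fun e he => Finset.mem_image_of_mem _ he) (fun e he => Finset.mem_image_of_mem _ he)
    hD (q3.trans hbβ) (q4.trans hbβ) (q5.trans hbβ) (q6.trans hbβ)
  rw [prod_eq_pdeg (n := 2) (σ := 2 - v1 k₀) (v := v1) (by omega),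
    prod_eq_pdeg (n := 2) (σ := 2 - v2 k₀) (v := v2) (by omega)] at hcount
  have hgF' : 1 ≤ vF k₀ → (∏ i : Fin (vF k₀), (β ^ L) ^ kap (k₀ + 1) vF (i : ℕ)) *
      (β ^ L) ^ (h / 6) ≤ Θ₁ * τ ^ vF k₀ := hgF
  set DF := ∏ i : Fin (vF k₀), (β ^ L) ^ kap (k₀ + 1) vF (i : ℕ) with hDF
  refine ⟨h, hh, E₂, hE₂.trans hE₁, hE₂n, ?_, _, _, _, ?_,
    sideV_of (Cb := (β ^ L) ^ aBC 2 L (2 * MV 2)) (σ := 2 - v1 k₀)
      (V := E₂.image Prod.fst) (D := pdeg (β ^ L) k₀ v1) (f := m) (v := v1) (k₀ := k₀)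
      (b := β ^ L) (Θ := Θ₁) hJ1 le_rfl
      (by omega) (by omega) (by omega) (by omega) (hg1.mono le_rfl hSc1') rfl
      (fun _ s _ => le_rfl)
      hCbΘ hΘ12 hΘ1pos,
    sideV_of (Cb := (β ^ L) ^ aBC 2 L (2 * MV 2)) (σ := 2 - v2 k₀)
      (V := E₂.image Prod.snd) (D := pdeg (β ^ L) k₀ v2) (f := m) (v := v2) (k₀ := k₀)
      (b := β ^ L) (Θ := Θ₁) hJ2 le_rfl
      (by omega) (by omega) (by omega) (by omega) (hg2.mono le_rfl hSc2') rfl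
      (fun _ s _ => le_rfl)
      hCbΘ hΘ12 hΘ1pos,
    thirdN_of (Cb := (β ^ L) ^ aBC 2 L (2 * MV 2)) (σ₁ := 2 - v1 k₀) (σ₂ := 2 - v2 k₀)
      (DF := DF) (by omega) (by omega) hvF htight hgF' hCbΘ⟩
  · calc E₀.card ≤ Θ₁ * E₁.card := hE₁c
      _ ≤ Θ₁ * (β ^ lossBC 2 * E₂.card) := Nat.mul_le_mul_left _ hE₂c
      _ = β ^ (CC0 2 * h + CC1 2 L (lenBC 2 L (2 * MV 2)) + lossBC 2) * E₂.card := by
          rw [hΘ₁, pow_add β (CC0 2 * h + CC1 2 L (lenBC 2 L (2 * MV 2))) (lossBC 2)]; ring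
      _ ≤ Θ₂ * E₂.card :=
          Nat.mul_le_mul_right _ (Nat.pow_le_pow_right hβ1 (by unfold CC2; omega))
  · have hab : mS 2 L (KB 2 (CB 2)) (2 * MV 2) * KB 2 (CB 2) * (4 * (2 + 1)) + 2 =
      aBC 2 L (2 * MV 2) := rfl
    rw [hab, Finset.card_empty] at hcount
    refine hcount.trans (le_of_eq ?_)
    ring

end Vale.Agent.P054.T3.H373
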