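import Vale.Agent.P054.T3.H373.Main2
import Vale.Agent.P054.T3.H533.VSub

set_option autoImplicit false
set_option linter.unusedVariables false

/-!
# P054 / T3: `main2` without hypotheses, in the form of the linker
-/

namespace Vale.Agent.P054.T3.H373

open Finset MvPolynomial Module
open Vale.Agent.P054.T2 Vale.Agent.P054.T2.SecC
open Vale.Agent.P054.T2.H307 (Ed)
open Vale.Agent.P054.T2.H686 (Ez Gm E)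
open Vale.Agent.P054.T2.H455 (Sep)
open Vale.Agent.P054.T3.H533 (MuK NoRichL vSubH)
open Vale.Agent.P054.T3.H637 (FlatQ dt)
open Vale.Agent.P054.T3.H461

/-- **ALL SECTIONS, `n = 2`**, the form used by the linker -/
theorem main2U : ∀ L : ℕ, 48 * 9 ≤ L → ∀ Λ₀ Λ₁ : ℕ, 1 ≤ Λ₁ → ∃ β₀ c₂ : ℕ, ∀ β : ℕ, β₀ ≤ β →
    ∀ τ ell T : ℕ, (β ^ L) ^ ell ≤ τ → τ ≤ (β ^ L) ^ (ell + 1) → τ ≤ Λ₁ * T → 1 ≤ T →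
    ∀ (P : Finset (E 2)) (B : E 2 ≃ₗᵢ[ℝ] E 2) (k : ℕ), Gm P B →
    ∀ (Sg₁ Sg₂ : Finset (ZZ 2)) (E₀ : Finset (ZZ 2 × ZZ 2)), E₀.Nonempty → E₀ ⊆ Ez P B k →
    Sep (fun s : ZZ 2 => pt s) (4 * T) Sg₁ → Sep (fun s : ZZ 2 => pt s) (4 * T) Sg₂ →
    (∀ e ∈ E₀, e.1 ∈ Sg₁) → (∀ e ∈ E₀, e.2 ∈ Sg₂) →
    Sg₁.card * Sg₂.card ≤ Λ₀ * τ * E₀.card →
    ∀ (Gf : ℕ) (m : ZZ 2 → ℕ), MuK E₀ 1 → MuK (swp E₀) 1 → FlatQ 2 P Gf → P.card ≤ Gf →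
    (∀ e ∈ E₀, NoRichL B E₀ m (dt B) e) →
    ∃ h ≤ ell, ∃ A X₁ X₂ X₃ : ℕ, E₀.card ≤ β ^ (CC0 2 * h + c₂) * A ∧ A ≤ X₁ + X₂ + X₃ ∧
      SideV 2 (β ^ (CC0 2 * h + c₂)) ((β ^ L) ^ (h / 6)) T τ Sg₁.card P.card Gf 1 Sg₁ m X₁ ∧
      SideV 2 (β ^ (CC0 2 * h + c₂)) ((β ^ L) ^ (h / 6)) T τ Sg₂.card P.card Gf 1 Sg₂ m X₂ ∧
      ThirdN 2 (β ^ (CC0 2 * h + c₂)) ((β ^ L) ^ (h / 6)) T τ X₃ := by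
  intro L hL Λ₀ Λ₁ hΛ₁
  obtain ⟨β₀, h⟩ := main2 (vSubH 2) (L := L) (by omega) Λ₀ Λ₁ hΛ₁
  refine ⟨β₀, CC2 2 L, fun β hβ τ ell T h1 h2 h3 h4 P B k hB Sg₁ Sg₂ E₀ h5 h6 h7 h8 h9 h10 h11
    Gf m h12 h13 h14 h15 h16 => ?_⟩
  obtain ⟨h, hh, E₂, -, -, h17, X₁, X₂, X₃, h18, h19, h20, h21⟩ :=
    h β hβ τ ell T h1 h2 h3 h4 P B k hB Sg₁ Sg₂ E₀ h5 h6 h7 h8 h9 h10 h11 1 Gf m h12 h13 h14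
      h15 h16
  exact ⟨h, hh, E₂.card, X₁, X₂, X₃, h17, h18, h19, h20, h21⟩

end Vale.Agent.P054.T3.H373
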